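import Vale.Agent.P363W18.Fin
import Vale.Agent.P363W18.St2

/-!
# P363: the question with self-adjoint Hamiltonians and trace-class ensembles

The Hamiltonians `H_s(v)` and `H_C` are the self-adjoint operators of their closed forms on
`⋀^N L²(ℝ³; ℂ²)`; a ground-state ensemble is a positive trace-class operator of trace one with range
in the eigenspace at `inf σ(H)`; every such operator has a density. Atoms with five electrons and
large nuclear charge have a normalized ground state whose density is not noninteracting ensemble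
representable.
-/

namespace Vale.Agent.Results.P363.ALiteral

open MeasureTheory Vale.Agent.P363.Stmt Vale.Agent.P370T Vale.Agent.P363L
open scoped ComplexConjugate

theorem result :
    (∀ (n : ℕ) (w : Conf (n + 1) → ℝ), IsPotential w →
      ((∀ φ ∈ H1 (n + 1), ∀ ψ ∈ H1 (n + 1), ∀ s,
        Integrable (fun x => w x * (conj (wf φ s x) * wf ψ s x)) (lebN (n + 1)).volume) ∧
      Good (H1 (n + 1)) (formH w)) ∧
      ∀ Γ : Bdd (n + 1), IsEnsemble (ham w) Γ →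
        ∃ ψ : ℕ → HN (n + 1), (∀ k, ψ k ∈ groundSpace (ham w)) ∧ IsMixture Γ ψ ∧
          IsDensity Γ fun r => ∑' k, dens (ψ k) r) ∧
    (∀ (n : ℕ) (Γ : Bdd (n + 1)), IsState Γ → TraceOne Γ ∧
      ∃ ρ, IsDensity Γ ρ ∧ (∀ r, 0 ≤ ρ r) ∧ int3 ρ = n + 1 ∧
        ∀ ρ', IsDensity Γ ρ' → AE3 fun r => ρ' r = ρ r) ∧
    (∀ (n : ℕ) (ψ : HN (n + 1)), ‖ψ‖ = 1 → IsState (proj ψ) ∧ IsDensity (proj ψ) (dens ψ)) ∧
    (∃ Z₀ : ℕ, ∀ Z : ℕ, Z₀ ≤ Z → ∃ ψ : HN (4 + 1),
      ψ ∈ groundSpace (ham (coulombPotential (fun _ : Fin 1 => Z) fun _ => 0)) ∧ ‖ψ‖ = 1 ∧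
        ¬ Representable (4 + 1) (dens ψ)) ∧
    ¬ Q1 :=
  ⟨fun n w h => ⟨ops n w h, fun Γ hΓ => (mixes n w h Γ hΓ).imp fun _ a =>
    ⟨a.1, ⟨a.2.1, a.2.2.1⟩, a.2.2.2⟩⟩, states, pure, atoms, not_Q1⟩

end Vale.Agent.Results.P363.ALiteral
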